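import Vale.Agent.P146.Div.Spread.Main

namespace Vale.Agent.Results.P146.FluctuationsDiverge

open MeasureTheory ProbabilityTheory Filter Vale.Agent.P146

/-- The fluctuations of the free energy diverge at low temperature: for every fixed `β > 1` the
free energy leaves every window of fixed width in probability, whatever its centring; the variance
tends to infinity for every `β ≥ 1`, uniformly near `β = 1`. -/
theorem result :
    (∀ β : ℝ, 1 < β → ∀ L η : ℝ, 0 < η → ∀ᶠ n : ℕ in atTop, ∀ a : ℝ,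
      (disorder n).real {g | |freeEnergy n β g - a| ≤ L} ≤ η) ∧
    (∀ β : ℝ, 1 ≤ β →
      (∀ n : ℕ, MemLp (freeEnergy n β) 2 (disorder n)) ∧
        Tendsto (fun n : ℕ => variance (freeEnergy n β) (disorder n)) atTop atTop) ∧
    (∀ M : ℝ, ∃ δ : ℝ, 0 < δ ∧ ∃ N : ℕ, ∀ n : ℕ, N ≤ n → ∀ β : ℝ, 1 ≤ β → β ≤ 1 + δ →
      M ≤ variance (freeEnergy n β) (disorder n)) :=
  ⟨fun _ hβ L η hη => Div.Spread.spread hβ L η hη,
    fun β hβ => ⟨fun n => (NearOne.moments β n).1, Div.tendsto_variance hβ⟩,
    NearOne.variance_large⟩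

end Vale.Agent.Results.P146.FluctuationsDiverge
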