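import Vale.Agent.P146.Final

namespace Vale.Agent.Results.P146.Superconcentration

open MeasureTheory ProbabilityTheory Vale.Agent.P146

/-- Polynomial superconcentration of the free energy of the Sherrington-Kirkpatrick model. -/
theorem result :
    ∀ β : ℝ, 0 < β → ∃ C : ℝ, ∀ n : ℕ, 2 ≤ n →
      MemLp (freeEnergy n β) 2 (disorder n) ∧
        variance (freeEnergy n β) (disorder n) ≤ C * (n : ℝ) ^ (1 - 1 / 64 : ℝ) := by
  intro β hβ
  obtain ⟨C, hC⟩ := freeEnergy_variance_le hβ.le
  refine ⟨C, fun n hn => ⟨(hC n hn).1, ?_⟩⟩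
  rw [show (1 - 1 / 64 : ℝ) = 63 / 64 by norm_num]
  exact (hC n hn).2

end Vale.Agent.Results.P146.Superconcentration
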